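import Vale.Agent.P159.TM.H821.Dup
import Vale.Agent.P159.T1.H934.Kern
import Vale.Agent.P159.R2.H254.Link

/-!
The duplication calculus for the general height model: sites `V`, edges `s t : E → V` with
weights `I e`, pins `pt : P → V` with weights `J p` and integer values `ζ p`, a mass factor `M`
of `h - f` (`f` a real background), a real tilt `g`.  Everything in `[0,∞]`.
-/

open scoped ENNReal

namespace Vale.Agent.P159.TM.H821

open Vale.Agent.P159.H353 (wI wI_nonneg)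
open Vale.Agent.P159.T1.H934 (psi cc cc_nonneg kt kernel)
open Vale.Agent.P159.R2.H254 (bes bes_eq)

/-! ### Instances -/

lemma phi_zero_nonneg (k : ℕ) (p : ℤ) : 0 ≤ Vale.Agent.P159.T1.H934.phi 0 k p := by
  induction k generalizing p with
  | zero =>
    show 0 ≤ (if p = 0 then (1 : ℝ) else 0)
    split_ifs <;> norm_num
  | succ k ih => simp only [Vale.Agent.P159.T1.H934.phi]; exact add_nonneg (ih _) (ih _)

theorem dup_wI {b : ℝ} (hb : 0 ≤ b) : Dup (fun n : ℤ => ENNReal.ofReal (wI b n)) := by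
  refine ⟨ℕ × ℕ, fun i => if i.2 = 0 then ENNReal.ofReal (cc b 0 i) else 0,
    fun i p => ENNReal.ofReal (Vale.Agent.P159.T1.H934.phi i.2 i.1 p), fun n m => ?_⟩
  have h := kernel hb le_rfl n m
  rw [add_zero] at h
  rw [← ENNReal.ofReal_mul (wI_nonneg hb n), ← h.tsum_eq,
    ENNReal.ofReal_tsum_of_nonneg _ h.summable]
  · refine tsum_congr fun i => ?_
    unfold kt
    by_cases hi : i.2 = 0
    · simp only [hi, if_true]
      rw [ENNReal.ofReal_mul (cc_nonneg hb le_rfl _), ENNReal.ofReal_mul (phi_zero_nonneg _ _)]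
    · have : cc b 0 i = 0 := by
        unfold cc
        rw [zero_div, zero_pow hi]
        simp
      simp [this]
  · intro i
    unfold kt
    by_cases hi : i.2 = 0
    · simp only [hi]
      exact mul_nonneg (cc_nonneg hb le_rfl _)
        (mul_nonneg (phi_zero_nonneg _ _) (phi_zero_nonneg _ _))
    · have : cc b 0 i = 0 := by
        unfold cc
        rw [zero_div, zero_pow hi]
        simp
      simp [this]

theorem dup_bes {b : ℝ} (hb : 0 ≤ b) : Dup (fun n : ℤ => ENNReal.ofReal (bes b n)) := by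
  simp only [bes_eq hb]
  exact dup_wI hb

/-- functions `exp (- Q u)`, `Q` satisfying the parallelogram law -/
theorem dup_exp {A : Type} [AddCommGroup A] (Q R : A → ℝ)
    (h : ∀ x y, Q x + Q y = R (x + y) + R (x - y)) :
    Dup (fun u : A => ENNReal.ofReal (Real.exp (Q u))) := by
  refine Dup.of_mul (H := fun u => ENNReal.ofReal (Real.exp (R u))) (fun x y => ?_)
  rw [← ENNReal.ofReal_mul (Real.exp_pos _).le, ← ENNReal.ofReal_mul (Real.exp_pos _).le,
    ← Real.exp_add, ← Real.exp_add, h]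

/-- diagonal masses -/
theorem dup_mass {V : Type} [Fintype V] (m : V → ℝ) :
    Dup (fun u : V → ℝ => ENNReal.ofReal (Real.exp (-∑ x, m x / 2 * u x ^ 2))) := by
  refine dup_exp (fun u : V → ℝ => -∑ x, m x / 2 * u x ^ 2) (fun u => -∑ x, m x / 4 * u x ^ 2) ?_
  intro x y
  rw [← neg_add, ← neg_add, ← Finset.sum_add_distrib, ← Finset.sum_add_distrib]
  congr 1
  refine Finset.sum_congr rfl fun v _ => ?_
  simp only [Pi.add_apply, Pi.sub_apply]
  ring

/-- a general quadratic form -/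
theorem dup_form {V : Type} [Fintype V] (Θ : V → V → ℝ) :
    Dup (fun u : V → ℝ => ENNReal.ofReal (Real.exp (-(∑ x, ∑ y, u x * Θ x y * u y) / 2))) := by
  refine dup_exp (fun u : V → ℝ => -(∑ x, ∑ y, u x * Θ x y * u y) / 2)
    (fun u => -(∑ x, ∑ y, u x * Θ x y * u y) / 4) ?_
  intro u v
  have : ∑ x, ∑ y, (u + v) x * Θ x y * (u + v) y + ∑ x, ∑ y, (u - v) x * Θ x y * (u - v) y
      = 2 * ∑ x, ∑ y, u x * Θ x y * u y + 2 * ∑ x, ∑ y, v x * Θ x y * v y := by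
    rw [Finset.mul_sum, Finset.mul_sum, ← Finset.sum_add_distrib, ← Finset.sum_add_distrib]
    refine Finset.sum_congr rfl fun x _ => ?_
    rw [Finset.mul_sum, Finset.mul_sum, ← Finset.sum_add_distrib, ← Finset.sum_add_distrib]
    refine Finset.sum_congr rfl fun y _ => ?_
    simp only [Pi.add_apply, Pi.sub_apply]
    ring
  linarith

/-- the tilt `exp <g, h>` as a function of the pair `(h, g)` -/
theorem dup_tilt {V : Type} [Fintype V] :
    Dup (fun q : (V → ℤ) × (V → ℝ) => ENNReal.ofReal (Real.exp (∑ x, q.2 x * q.1 x))) := by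
  refine dup_exp (fun q : (V → ℤ) × (V → ℝ) => ∑ x, q.2 x * q.1 x)
    (fun q => (∑ x, q.2 x * q.1 x) / 2) ?_
  intro p q
  rw [← add_div, ← Finset.sum_add_distrib, ← Finset.sum_add_distrib, Finset.sum_div]
  refine Finset.sum_congr rfl fun v _ => ?_
  simp only [Prod.fst_add, Prod.snd_add, Prod.fst_sub, Prod.snd_sub, Pi.add_apply, Pi.sub_apply]
  push_cast
  ring

/-! ### The general model -/

variable {V E P : Type} [Fintype V] [Fintype E] [Fintype P]

/-- the weight -/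
noncomputable def Wt (s t : E → V) (I : E → ℤ → ℝ≥0∞) (pt : P → V) (J : P → ℤ → ℝ≥0∞)
    (M : (V → ℝ) → ℝ≥0∞) (h : V → ℤ) (ζ : P → ℤ) (f g : V → ℝ) : ℝ≥0∞ :=
  (∏ p, J p (h (pt p) - ζ p)) * ((∏ e, I e (h (t e) - h (s e))) * (M (fun x => (h x : ℝ) - f x) *
    ENNReal.ofReal (Real.exp (∑ x, g x * h x))))

/-- the partition function -/
noncomputable def Zt (s t : E → V) (I : E → ℤ → ℝ≥0∞) (pt : P → V) (J : P → ℤ → ℝ≥0∞)
    (M : (V → ℝ) → ℝ≥0∞) (ζ : P → ℤ) (f g : V → ℝ) : ℝ≥0∞ :=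
  ∑' h : V → ℤ, Wt s t I pt J M h ζ f g

/-- the exact pins -/
def pin0 : P → ℤ → ℝ≥0∞ := fun _ n => if n = 0 then 1 else 0

section model

variable {s t : E → V} {I : E → ℤ → ℝ≥0∞} {pt : P → V} {J : P → ℤ → ℝ≥0∞}
  {M : (V → ℝ) → ℝ≥0∞}

/-- real background as a homomorphism -/
def bgHom : ((V → ℤ) × ((V → ℝ) × (V → ℝ))) →+ (V → ℝ) where
  toFun q := fun x => (q.1 x : ℝ) - q.2.1 x
  map_zero' := by funext x; simp
  map_add' p q := by
    funext x
    simp only [Prod.fst_add, Prod.snd_add, Pi.add_apply]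
    push_cast; ring

/-- the tilt pair as a homomorphism -/
def tiltHom : ((V → ℤ) × ((V → ℝ) × (V → ℝ))) →+ ((V → ℤ) × (V → ℝ)) where
  toFun q := (q.1, q.2.2)
  map_zero' := rfl
  map_add' _ _ := rfl

/-- the gradient as a homomorphism -/
def grdHom (a b : V) : (V → ℤ) →+ ℤ where
  toFun h := h b - h a
  map_zero' := by simp
  map_add' h k := by simp only [Pi.add_apply]; ring

/-- restriction to the pins -/
def resHom (pt : P → V) : (V → ℤ) →+ (P → ℤ) where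
  toFun h := fun p => h (pt p)
  map_zero' := rfl
  map_add' _ _ := rfl

theorem dup_core (hI : ∀ e, Dup (I e)) (hM : Dup M) :
    Dup (fun q : (V → ℤ) × ((V → ℝ) × (V → ℝ)) => (∏ e, I e (q.1 (t e) - q.1 (s e))) *
      (M (fun x => (q.1 x : ℝ) - q.2.1 x) *
        ENNReal.ofReal (Real.exp (∑ x, q.2.2 x * q.1 x)))) := by
  have h1 : Dup (fun q : (V → ℤ) × ((V → ℝ) × (V → ℝ)) => ∏ e, I e (q.1 (t e) - q.1 (s e))) :=
    Dup.prod Finset.univ (fun e _ =>
      (hI e).comp ((grdHom (s e) (t e)).comp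
        (AddMonoidHom.fst (V → ℤ) ((V → ℝ) × (V → ℝ)))))
  exact h1.mul ((hM.comp bgHom).mul (dup_tilt.comp tiltHom))

theorem dup_pins (hJ : ∀ p, Dup (J p)) : Dup (fun c : P → ℤ => ∏ p, J p (c p)) :=
  Dup.prod Finset.univ (fun p _ => (hJ p).comp (Pi.evalAddMonoidHom (fun _ : P => ℤ) p))

theorem tf_pi (X : Type) : ∀ x : X → ℤ, x + x = 0 → x = 0 := by
  intro x hx
  funext v
  have := congrFun hx v
  simp only [Pi.add_apply, Pi.zero_apply] at this ⊢
  omega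

/-- `Zt` is a DUP function of the parameters -/
theorem dup_Zt (hI : ∀ e, Dup (I e)) (hJ : ∀ p, Dup (J p)) (hM : Dup M) :
    Dup (fun q : (P → ℤ) × ((V → ℝ) × (V → ℝ)) => Zt s t I pt J M q.1 q.2.1 q.2.2) := by
  have h := ((dup_core (s := s) (t := t) hI hM).shift (resHom pt) (dup_pins hJ)).marg (tf_pi V)
  exact h

/-- **GIN** (E2a): four replica inequality with pins, background and real tilt -/
theorem gin (hI : ∀ e, Dup (I e)) (hJ : ∀ p, Dup (J p)) (hM : Dup M) (ζ₁ ζ₂ : P → ℤ)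
    (f₁ f₂ g₁ g₂ : V → ℝ) :
    (Zt s t I pt J M ζ₁ f₁ g₁ * Zt s t I pt J M ζ₂ f₂ g₂) ^ 2
      ≤ Zt s t I pt J M 0 0 0 ^ 2 * (Zt s t I pt J M (ζ₁ + ζ₂) (f₁ + f₂) (g₁ + g₂)
        * Zt s t I pt J M (ζ₁ - ζ₂) (f₁ - f₂) (g₁ - g₂)) :=
  (dup_Zt (s := s) (t := t) (pt := pt) hI hJ hM).sq_le (ζ₁, (f₁, g₁)) (ζ₂, (f₂, g₂))

/-- the two replica inequality -/
theorem gin2 (hI : ∀ e, Dup (I e)) (hJ : ∀ p, Dup (J p)) (hM : Dup M) (ζ₁ ζ₂ : P → ℤ)
    (f₁ f₂ g₁ g₂ : V → ℝ) :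
    2 * (Zt s t I pt J M ζ₁ f₁ g₁ * Zt s t I pt J M ζ₂ f₂ g₂)
      ≤ Zt s t I pt J M 0 0 0 * (Zt s t I pt J M (ζ₁ + ζ₂) (f₁ + f₂) (g₁ + g₂)
        + Zt s t I pt J M (ζ₁ - ζ₂) (f₁ - f₂) (g₁ - g₂)) :=
  (dup_Zt (s := s) (t := t) (pt := pt) hI hJ hM).two_mul_le (ζ₁, (f₁, g₁)) (ζ₂, (f₂, g₂))

/-- evenness of the core weight -/
theorem core_even (hIe : ∀ e n, I e (-n) = I e n) (hMe : ∀ u, M (-u) = M u)
    (h : V → ℤ) (b : (V → ℝ) × (V → ℝ)) :
    (fun q : (V → ℤ) × ((V → ℝ) × (V → ℝ)) => (∏ e, I e (q.1 (t e) - q.1 (s e))) *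
      (M (fun x => (q.1 x : ℝ) - q.2.1 x) *
        ENNReal.ofReal (Real.exp (∑ x, q.2.2 x * q.1 x)))) (-h, -b)
      = (fun q : (V → ℤ) × ((V → ℝ) × (V → ℝ)) => (∏ e, I e (q.1 (t e) - q.1 (s e))) *
      (M (fun x => (q.1 x : ℝ) - q.2.1 x) *
        ENNReal.ofReal (Real.exp (∑ x, q.2.2 x * q.1 x)))) (h, b) := by
  have h1 : ∀ e, I e ((-h) (t e) - (-h) (s e)) = I e (h (t e) - h (s e)) := by
    intro e
    rw [← hIe e (h (t e) - h (s e))]
    congr 1
    simp only [Pi.neg_apply]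
    ring
  have h2 : M (fun x => (((-h) x : ℤ) : ℝ) - (-b).1 x) = M (fun x => (h x : ℝ) - b.1 x) := by
    rw [← hMe (fun x => (h x : ℝ) - b.1 x)]
    congr 1
    funext x
    simp only [Pi.neg_apply, Prod.fst_neg]
    push_cast
    ring
  have h3 : ∑ x, (-b).2 x * (((-h) x : ℤ) : ℝ) = ∑ x, b.2 x * (h x : ℝ) := by
    refine Finset.sum_congr rfl fun x _ => ?_
    simp only [Pi.neg_apply, Prod.snd_neg]
    push_cast
    ring
  simp only [h1, h2, h3]

theorem Zt_neg (hIe : ∀ e n, I e (-n) = I e n) (hJe : ∀ p n, J p (-n) = J p n)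
    (hMe : ∀ u, M (-u) = M u) (ζ : P → ℤ) (f g : V → ℝ) :
    Zt s t I pt J M (-ζ) (-f) (-g) = Zt s t I pt J M ζ f g := by
  unfold Zt
  rw [← (Equiv.neg (V → ℤ)).tsum_eq]
  refine tsum_congr fun h => ?_
  have h1 := core_even (s := s) (t := t) hIe hMe h (f, g)
  have h2 : ∀ p, J p (((Equiv.neg (V → ℤ)) h) (pt p) - (-ζ) p) = J p (h (pt p) - ζ p) := by
    intro p
    rw [← hJe p (h (pt p) - ζ p)]
    congr 1
    simp only [Equiv.neg_apply, Pi.neg_apply]
    ring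
  simp only [Wt, h2]
  congr 1

/-- **PINNING** in the general model -/
theorem pin_le (hI : ∀ e, Dup (I e)) (hM : Dup M) (hIe : ∀ e n, I e (-n) = I e n)
    (hJe : ∀ p n, J p (-n) = J p n) (hMe : ∀ u, M (-u) = M u) (f g : V → ℝ) :
    Zt s t I pt J M 0 0 0 * Zt s t I pt pin0 M 0 f g
      ≤ Zt s t I pt pin0 M 0 0 0 * Zt s t I pt J M 0 f g := by
  have h := Dup.pin_mono (tf_pi V) (tf_pi P) (dup_core (s := s) (t := t) hI hM)
    (core_even (s := s) (t := t) hIe hMe) (resHom pt) (fun c => ∏ p, J p (c p))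
    (fun c => Finset.prod_congr rfl fun p _ => hJe p _) (f, g)
  have e : ∀ f' g' : V → ℝ, Zt s t I pt pin0 M 0 f' g'
      = ∑' h : V → ℤ, (if resHom pt h = 0 then (1 : ℝ≥0∞) else 0) *
        ((∏ e, I e (h (t e) - h (s e))) * (M (fun x => (h x : ℝ) - f' x) *
        ENNReal.ofReal (Real.exp (∑ x, g' x * h x)))) := by
    intro f' g'
    unfold Zt Wt
    refine tsum_congr fun h => ?_
    congr 1
    by_cases hh : resHom pt h = 0
    · rw [if_pos hh]
      refine Finset.prod_eq_one fun p _ => ?_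
      have := congrFun hh p
      simp only [resHom, AddMonoidHom.coe_mk, ZeroHom.coe_mk, Pi.zero_apply] at this
      simp [pin0, this]
    · rw [if_neg hh]
      have : ∃ p, h (pt p) ≠ 0 := by
        by_contra hc
        push Not at hc
        exact hh (funext hc)
      obtain ⟨p, hp⟩ := this
      exact Finset.prod_eq_zero (Finset.mem_univ p) (by simp [pin0, hp])
  have e' : ∀ f' g' : V → ℝ, Zt s t I pt J M 0 f' g'
      = ∑' h : V → ℤ, (∏ p, J p (resHom pt h p)) *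
        ((∏ e, I e (h (t e) - h (s e))) * (M (fun x => (h x : ℝ) - f' x) *
        ENNReal.ofReal (Real.exp (∑ x, g' x * h x)))) := by
    intro f' g'
    unfold Zt Wt
    refine tsum_congr fun h => ?_
    congr 1
    refine Finset.prod_congr rfl fun p _ => ?_
    simp [resHom]
  rw [e, e, e', e']
  exact h

/-- **E2** (rest of a cluster with fixed pins): for all integer pin values `ζ`, real background
`f`, real tilt `g`. -/
theorem rest_le (hI : ∀ e, Dup (I e)) (hJ : ∀ p, Dup (J p)) (hM : Dup M)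
    (hIe : ∀ e n, I e (-n) = I e n) (hJe : ∀ p n, J p (-n) = J p n) (hMe : ∀ u, M (-u) = M u)
    (h0 : Zt s t I pt J M 0 0 0 ≠ 0) (h1 : Zt s t I pt J M 0 0 0 ≠ ⊤) (ζ : P → ℤ)
    (f g : V → ℝ) :
    (Zt s t I pt J M ζ f 0) ^ 2 * (Zt s t I pt pin0 M 0 0 g) ^ 2
      ≤ (Zt s t I pt pin0 M 0 0 0) ^ 2 * (Zt s t I pt J M ζ f g * Zt s t I pt J M ζ f (-g)) := by
  have k1 := gin (s := s) (t := t) (pt := pt) hI hJ hM ζ 0 f 0 0 g
  simp only [add_zero, sub_zero, zero_add, zero_sub] at k1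
  have k2 := pin_le (s := s) (t := t) (pt := pt) (J := J) hI hM hIe hJe hMe 0 g
  have hz : Zt s t I pt J M 0 0 0 ^ 2 ≠ 0 := pow_ne_zero _ h0
  have hz' : Zt s t I pt J M 0 0 0 ^ 2 ≠ ⊤ := ENNReal.pow_ne_top h1
  refine (ENNReal.mul_le_mul_iff_right hz hz').1 ?_
  calc Zt s t I pt J M 0 0 0 ^ 2 * ((Zt s t I pt J M ζ f 0) ^ 2 * (Zt s t I pt pin0 M 0 0 g) ^ 2)
      = (Zt s t I pt J M ζ f 0) ^ 2 * (Zt s t I pt J M 0 0 0 * Zt s t I pt pin0 M 0 0 g) ^ 2 := by
        ring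
    _ ≤ (Zt s t I pt J M ζ f 0) ^ 2 * (Zt s t I pt pin0 M 0 0 0 * Zt s t I pt J M 0 0 g) ^ 2 := by
        gcongr
    _ = Zt s t I pt pin0 M 0 0 0 ^ 2 * (Zt s t I pt J M ζ f 0 * Zt s t I pt J M 0 0 g) ^ 2 := by
        ring
    _ ≤ Zt s t I pt pin0 M 0 0 0 ^ 2 * (Zt s t I pt J M 0 0 0 ^ 2 *
          (Zt s t I pt J M ζ f g * Zt s t I pt J M ζ f (-g))) := by
        gcongr
    _ = _ := by ring

/-- `E_0 e^{2<g,h>} ≥ (E_0 e^{<g,h>})^4` -/
theorem four_exp (hI : ∀ e, Dup (I e)) (hJ : ∀ p, Dup (J p)) (hM : Dup M) (g : V → ℝ) :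
    Zt s t I pt J M 0 0 g ^ 4 ≤ Zt s t I pt J M 0 0 0 ^ 3 * Zt s t I pt J M 0 0 (g + g) := by
  have := (dup_Zt (s := s) (t := t) (pt := pt) hI hJ hM).four (0, (0, g))
  simpa using this

end model

end Vale.Agent.P159.TM.H821
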