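import Mathlib

/-!
Duplication calculus in `[0,∞]` for height models (P159, T1).

`Dup φ` : `φ x * φ y = ∑' k, c k * (G k (x+y) * G k (x-y))` with nonnegative `c k`, `G k`.
The class is closed under products, pull back along homomorphisms, and summation over
a subgroup variable (`Dup.marg`).  The Ginibre type inequalities `two_mul_le`, `sq_le` follow by
Cauchy-Schwarz.
-/

open scoped ENNReal

namespace Vale.Agent.P159.TM.H821

/-- The duplication class. -/
def Dup {A : Type} [AddCommGroup A] (φ : A → ℝ≥0∞) : Prop :=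
  ∃ (K : Type) (c : K → ℝ≥0∞) (G : K → A → ℝ≥0∞),
    ∀ x y, φ x * φ y = ∑' k, c k * (G k (x + y) * G k (x - y))

section basic

variable {A B C H : Type} [AddCommGroup A] [AddCommGroup B] [AddCommGroup C] [AddCommGroup H]

theorem Dup.of_mul {φ H : A → ℝ≥0∞} (h : ∀ x y, φ x * φ y = H (x + y) * H (x - y)) : Dup φ := by
  refine ⟨Unit, fun _ => 1, fun _ => H, fun x y => ?_⟩
  rw [tsum_fintype]
  simp [h x y]

theorem Dup.one : Dup (fun _ : A => (1 : ℝ≥0∞)) :=
  Dup.of_mul (H := fun _ => 1) (by simp)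

theorem Dup.comp {φ : B → ℝ≥0∞} (h : Dup φ) (f : A →+ B) : Dup (fun x => φ (f x)) := by
  obtain ⟨K, c, G, hG⟩ := h
  refine ⟨K, c, fun k x => G k (f x), fun x y => ?_⟩
  rw [hG]
  simp [map_add, map_sub]

theorem Dup.mul {φ ψ : A → ℝ≥0∞} (h₁ : Dup φ) (h₂ : Dup ψ) : Dup (fun x => φ x * ψ x) := by
  obtain ⟨K, c, G, hG⟩ := h₁
  obtain ⟨L, e, J, hJ⟩ := h₂
  refine ⟨K × L, fun p => c p.1 * e p.2, fun p x => G p.1 x * J p.2 x, fun x y => ?_⟩
  have h1 : φ x * ψ x * (φ y * ψ y) = (φ x * φ y) * (ψ x * ψ y) := by ring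
  rw [h1, hG, hJ, ENNReal.tsum_prod', ← ENNReal.tsum_mul_right]
  refine tsum_congr fun k => ?_
  rw [← ENNReal.tsum_mul_left]
  refine tsum_congr fun l => ?_
  ring

theorem Dup.prod {ι : Type} (s : Finset ι) {φ : ι → A → ℝ≥0∞} (h : ∀ i ∈ s, Dup (φ i)) :
    Dup (fun x => ∏ i ∈ s, φ i x) := by
  classical
  induction s using Finset.induction_on with
  | empty => simpa using (Dup.one (A := A))
  | insert a s ha ih =>
    have h1 : Dup (φ a) := h a (by simp)
    have h2 : Dup (fun x => ∏ i ∈ s, φ i x) := ih (fun i hi => h i (by simp [hi]))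
    have h3 := Dup.mul h1 h2
    simpa [Finset.prod_insert ha] using h3

theorem Dup.const_mul {φ : A → ℝ≥0∞} (h : Dup φ) (a : ℝ≥0∞) : Dup (fun x => a * φ x) := by
  obtain ⟨K, c, G, hG⟩ := h
  refine ⟨K, fun k => a * a * c k, G, fun x y => ?_⟩
  have h1 : a * φ x * (a * φ y) = a * a * (φ x * φ y) := by ring
  rw [h1, hG, ← ENNReal.tsum_mul_left]
  refine tsum_congr fun k => ?_
  ring

/-- the exact pin `1{x = 0}` is in the class on a group without 2-torsion -/
theorem Dup.pin [DecidableEq A] (h2 : ∀ x : A, x + x = 0 → x = 0) :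
    Dup (fun x : A => if x = 0 then (1 : ℝ≥0∞) else 0) := by
  refine Dup.of_mul (H := fun x : A => if x = 0 then (1 : ℝ≥0∞) else 0) (fun x y => ?_)
  by_cases hx : x = 0
  · by_cases hy : y = 0
    · simp [hx, hy]
    · simp [hx, hy]
  · by_cases h1 : x + y = 0
    · by_cases h3 : x - y = 0
      · exfalso
        apply hx
        apply h2
        have : x + x = (x + y) + (x - y) := by abel
        rw [this, h1, h3, add_zero]
      · simp [hx, h3]
    · simp [hx, h1]

theorem Dup.shift_comp {φ : A → ℝ≥0∞} (h : Dup φ) :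
    Dup (fun p : A × A => φ (p.1 - p.2)) := by
  have := h.comp ((AddMonoidHom.fst A A) - (AddMonoidHom.snd A A))
  simpa using this

/-! ### Two inequalities -/

theorem ennreal_two_mul_le (a b : ℝ≥0∞) : 2 * (a * b) ≤ a * a + b * b := by
  rcases eq_or_ne a ⊤ with rfl | ha
  · simp
  rcases eq_or_ne b ⊤ with rfl | hb
  · simp
  lift a to NNReal using ha
  lift b to NNReal using hb
  have h : (2 : ℝ) * (a * b) ≤ a * a + b * b := by nlinarith [sq_nonneg ((a : ℝ) - b)]
  exact_mod_cast h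

theorem Dup.mul_zero_eq {φ : A → ℝ≥0∞} {K : Type} {c : K → ℝ≥0∞} {G : K → A → ℝ≥0∞}
    (hG : ∀ x y, φ x * φ y = ∑' k, c k * (G k (x + y) * G k (x - y))) (x : A) :
    φ x * φ 0 = ∑' k, c k * (G k x * G k x) := by
  have := hG x 0
  simpa using this

/-- (DUP1), the first Ginibre type inequality -/
theorem Dup.two_mul_le {φ : A → ℝ≥0∞} (h : Dup φ) (x y : A) :
    2 * (φ x * φ y) ≤ φ 0 * (φ (x + y) + φ (x - y)) := by
  obtain ⟨K, c, G, hG⟩ := h
  have e1 := Dup.mul_zero_eq hG (x + y)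
  have e2 := Dup.mul_zero_eq hG (x - y)
  have e3 : φ 0 * (φ (x + y) + φ (x - y)) = φ (x + y) * φ 0 + φ (x - y) * φ 0 := by ring
  rw [e3, e1, e2, hG, ← ENNReal.tsum_mul_left, ← ENNReal.tsum_add]
  refine ENNReal.tsum_le_tsum fun k => ?_
  calc 2 * (c k * (G k (x + y) * G k (x - y))) = c k * (2 * (G k (x + y) * G k (x - y))) := by ring
    _ ≤ c k * (G k (x + y) * G k (x + y) + G k (x - y) * G k (x - y)) := by gcongr; exact ennreal_two_mul_le _ _
    _ = _ := by ring

/-- Cauchy-Schwarz for sums in `[0,∞]` -/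
theorem cs_tsum {K : Type} (c a b : K → ℝ≥0∞) :
    (∑' k, c k * (a k * b k)) ^ 2 ≤ (∑' k, c k * (a k * a k)) * ∑' k, c k * (b k * b k) := by
  have h2 : ∀ (u v : K → ℝ≥0∞), (∑' k, u k) * (∑' k, v k) = ∑' k, ∑' l, u k * v l := by
    intro u v
    rw [← ENNReal.tsum_mul_right]
    refine tsum_congr fun k => ?_
    rw [← ENNReal.tsum_mul_left]
  have hL : (∑' k, c k * (a k * b k)) ^ 2
      = ∑' k, ∑' l, (c k * c l) * ((a k * b l) * (a l * b k)) := by
    rw [sq, h2]
    refine tsum_congr fun k => tsum_congr fun l => ?_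
    ring
  have hR : (∑' k, c k * (a k * a k)) * (∑' k, c k * (b k * b k))
      = ∑' k, ∑' l, (c k * c l) * ((a k * b l) * (a k * b l)) := by
    rw [h2]
    refine tsum_congr fun k => tsum_congr fun l => ?_
    ring
  have hR' : (∑' k, c k * (a k * a k)) * (∑' k, c k * (b k * b k))
      = ∑' k, ∑' l, (c k * c l) * ((a l * b k) * (a l * b k)) := by
    rw [hR, ENNReal.tsum_comm]
    refine tsum_congr fun k => tsum_congr fun l => ?_
    ring
  have h4 : 2 * (∑' k, c k * (a k * b k)) ^ 2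
      ≤ 2 * ((∑' k, c k * (a k * a k)) * ∑' k, c k * (b k * b k)) := by
    rw [two_mul ((∑' k, c k * (a k * a k)) * ∑' k, c k * (b k * b k))]
    nth_rewrite 1 [hR]
    rw [hR', hL, ← ENNReal.tsum_mul_left, ← ENNReal.tsum_add]
    refine ENNReal.tsum_le_tsum fun k => ?_
    rw [← ENNReal.tsum_mul_left, ← ENNReal.tsum_add]
    refine ENNReal.tsum_le_tsum fun l => ?_
    calc 2 * ((c k * c l) * ((a k * b l) * (a l * b k)))
        = (c k * c l) * (2 * ((a k * b l) * (a l * b k))) := by ring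
      _ ≤ (c k * c l) * ((a k * b l) * (a k * b l) + (a l * b k) * (a l * b k)) := by
          gcongr; exact ennreal_two_mul_le _ _
      _ = _ := by ring
  exact (ENNReal.mul_le_mul_iff_right (by norm_num) (by norm_num)).1 h4

/-- (DUP2), the four replica inequality -/
theorem Dup.sq_le {φ : A → ℝ≥0∞} (h : Dup φ) (x y : A) :
    (φ x * φ y) ^ 2 ≤ φ 0 ^ 2 * (φ (x + y) * φ (x - y)) := by
  obtain ⟨K, c, G, hG⟩ := h
  have e1 := Dup.mul_zero_eq hG (x + y)
  have e2 := Dup.mul_zero_eq hG (x - y)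
  have e3 : φ 0 ^ 2 * (φ (x + y) * φ (x - y)) = (φ (x + y) * φ 0) * (φ (x - y) * φ 0) := by ring
  rw [e3, e1, e2, hG]
  exact cs_tsum c (fun k => G k (x + y)) (fun k => G k (x - y))

/-- `L(2g) ≥ 4 L(g)` -/
theorem Dup.four {φ : A → ℝ≥0∞} (h : Dup φ) (x : A) :
    φ x ^ 4 ≤ φ 0 ^ 3 * φ (x + x) := by
  have := h.sq_le x x
  simp only [sub_self] at this
  calc φ x ^ 4 = (φ x * φ x) ^ 2 := by ring
    _ ≤ φ 0 ^ 2 * (φ (x + x) * φ 0) := this
    _ = _ := by ring

end basic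

section marg

variable {H B C : Type} [AddCommGroup H] [AddCommGroup B] [AddCommGroup C]

/-- the subgroup of doubles -/
def dbl (H : Type) [AddCommGroup H] : AddSubgroup H :=
  (AddMonoidHom.range ((AddMonoidHom.id H) + (AddMonoidHom.id H)))

theorem mem_dbl {x : H} : x ∈ dbl H ↔ ∃ y : H, y + y = x := by
  simp [dbl, AddMonoidHom.mem_range]

/-- rotation of a double sum -/
theorem tsum_rot (h2 : ∀ x : H, x + x = 0 → x = 0) (F : H → H → ℝ≥0∞) [DecidableEq (H ⧸ dbl H)] :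
    ∑' h, ∑' h', F (h + h') (h - h')
      = ∑' s : H, ∑' d : H, if (s : H ⧸ dbl H) = (d : H ⧸ dbl H) then F s d else 0 := by
  have hinj : Function.Injective (fun p : H × H => (p.1 + p.2, p.1 - p.2)) := by
    intro p q hpq
    simp only [Prod.mk.injEq] at hpq
    obtain ⟨ha, hb⟩ := hpq
    have h1 : (p.1 - q.1) + (p.1 - q.1) = 0 := by
      have : (p.1 - q.1) + (p.1 - q.1) = ((p.1 + p.2) - (q.1 + q.2)) + ((p.1 - p.2) - (q.1 - q.2)) := by
        abel
      rw [this, ha, hb]; simp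
    have h3 := sub_eq_zero.1 (h2 _ h1)
    have h4 : p.2 = q.2 := by
      rw [h3] at ha
      exact add_left_cancel ha
    exact Prod.ext h3 h4
  have h0 : ∑' h, ∑' h', F (h + h') (h - h')
      = ∑' p : H × H, (fun q : H × H => if (q.1 : H ⧸ dbl H) = (q.2 : H ⧸ dbl H) then F q.1 q.2 else 0)
          (p.1 + p.2, p.1 - p.2) := by
    rw [ENNReal.tsum_prod']
    refine tsum_congr fun h => tsum_congr fun h' => ?_
    have : ((h + h' : H) : H ⧸ dbl H) = ((h - h' : H) : H ⧸ dbl H) := by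
      rw [QuotientAddGroup.eq]
      rw [mem_dbl]
      exact ⟨-h', by abel⟩
    simp only [this, if_true]
  rw [h0, hinj.tsum_eq (f := fun q : H × H => if (q.1 : H ⧸ dbl H) = (q.2 : H ⧸ dbl H)
    then F q.1 q.2 else 0), ENNReal.tsum_prod']
  intro q hq
  simp only [Function.mem_support, ne_eq, ite_eq_right_iff, Classical.not_imp] at hq
  have h1 := hq.1
  rw [QuotientAddGroup.eq, mem_dbl] at h1
  obtain ⟨y, hy⟩ := h1
  refine ⟨(q.1 + y, -y), ?_⟩
  refine Prod.ext (by simp) ?_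
  simp only
  have : q.2 = q.1 + (y + y) := by rw [hy]; abel
  rw [this]; abel

/-- marginals of a DUP function are DUP -/
theorem Dup.marg (h2 : ∀ x : H, x + x = 0 → x = 0) {W : H × B → ℝ≥0∞} (hW : Dup W) :
    Dup (fun b : B => ∑' h : H, W (h, b)) := by
  classical
  obtain ⟨K, c, G, hG⟩ := hW
  refine ⟨K × (H ⧸ dbl H), fun p => c p.1,
    fun p b => ∑' s : H, if (s : H ⧸ dbl H) = p.2 then G p.1 (s, b) else 0, fun x y => ?_⟩
  have e1 : (∑' h : H, W (h, x)) * (∑' h : H, W (h, y))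
      = ∑' k, ∑' h, ∑' h', c k * (G k (h + h', x + y) * G k (h - h', x - y)) := by
    rw [← ENNReal.tsum_mul_right]
    have : ∀ h, W (h, x) * ∑' h', W (h', y)
        = ∑' k, ∑' h', c k * (G k (h + h', x + y) * G k (h - h', x - y)) := by
      intro h
      rw [← ENNReal.tsum_mul_left, ENNReal.tsum_comm]
      refine tsum_congr fun h' => ?_
      rw [hG]
      rfl
    rw [tsum_congr this, ENNReal.tsum_comm]
  rw [e1, ENNReal.tsum_prod']
  refine tsum_congr fun k => ?_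
  rw [tsum_rot h2 (fun s d => c k * (G k (s, x + y) * G k (d, x - y)))]
  have e2 : ∀ q : H ⧸ dbl H, c k * ((∑' s : H, if (s : H ⧸ dbl H) = q then G k (s, x + y) else 0)
      * ∑' d : H, if (d : H ⧸ dbl H) = q then G k (d, x - y) else 0)
      = ∑' s : H, ∑' d : H, c k * ((if (s : H ⧸ dbl H) = q then G k (s, x + y) else 0)
        * (if (d : H ⧸ dbl H) = q then G k (d, x - y) else 0)) := by
    intro q
    rw [← ENNReal.tsum_mul_right, ← ENNReal.tsum_mul_left]
    refine tsum_congr fun s => ?_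
    rw [← ENNReal.tsum_mul_left, ← ENNReal.tsum_mul_left]
  refine Eq.trans ?_ (tsum_congr e2).symm
  symm
  rw [ENNReal.tsum_comm]
  refine tsum_congr fun s => ?_
  rw [ENNReal.tsum_comm]
  refine tsum_congr fun d => ?_
  rw [tsum_eq_single (s : H ⧸ dbl H)]
  · by_cases h : (s : H ⧸ dbl H) = (d : H ⧸ dbl H)
    · simp [h]
    · have h' : ¬ ((d : H ⧸ dbl H) = (s : H ⧸ dbl H)) := fun e => h e.symm
      simp [h, h']
  · intro q hq
    have : ¬ ((s : H ⧸ dbl H) = q) := fun e => hq e.symm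
    simp [this]

/-- change of measure by an even positive mixture of charges at `C` -/
theorem Dup.mix_le {Z : C × B → ℝ≥0∞} (hZ : Dup Z) (b : B)
    (hev : ∀ n : C, Z (n, -b) = Z (-n, b)) (φ : C → ℝ≥0∞) (hφ : ∀ n, φ (-n) = φ n) :
    (∑' n, φ n * Z (n, 0)) * Z (0, b) ≤ Z (0, 0) * ∑' n, φ n * Z (n, b) := by
  have key : ∀ n, 2 * (φ n * Z (n, 0) * Z (0, b))
      ≤ Z (0, 0) * (φ n * Z (n, b) + φ n * Z (-n, b)) := by
    intro n
    have h1 := hZ.two_mul_le (n, 0) (0, b)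
    simp only [Prod.mk_add_mk, add_zero, zero_add, Prod.mk_sub_mk, sub_zero, zero_sub] at h1
    rw [hev] at h1
    calc 2 * (φ n * Z (n, 0) * Z (0, b)) = φ n * (2 * (Z (n, 0) * Z (0, b))) := by ring
      _ ≤ φ n * (Z 0 * (Z (n, b) + Z (-n, b))) := by gcongr
      _ = Z 0 * (φ n * Z (n, b) + φ n * Z (-n, b)) := by ring
  have h3 : ∑' n, φ n * Z (-n, b) = ∑' n, φ n * Z (n, b) := by
    rw [← (Equiv.neg C).tsum_eq (fun n => φ n * Z (n, b))]
    refine tsum_congr fun n => ?_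
    simp [hφ]
  have h4 : 2 * ((∑' n, φ n * Z (n, 0)) * Z (0, b)) ≤ 2 * (Z (0, 0) * ∑' n, φ n * Z (n, b)) := by
    calc 2 * ((∑' n, φ n * Z (n, 0)) * Z (0, b)) = ∑' n, 2 * (φ n * Z (n, 0) * Z (0, b)) := by
          rw [← ENNReal.tsum_mul_right, ← ENNReal.tsum_mul_left]
      _ ≤ ∑' n, Z (0, 0) * (φ n * Z (n, b) + φ n * Z (-n, b)) := ENNReal.tsum_le_tsum key
      _ = 2 * (Z (0, 0) * ∑' n, φ n * Z (n, b)) := by
          rw [ENNReal.tsum_mul_left, ENNReal.tsum_add, h3]; ring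
  exact (ENNReal.mul_le_mul_iff_right (by norm_num) (by norm_num)).1 h4

/-- products with a shifted factor -/
theorem Dup.shift {W : H × B → ℝ≥0∞} (hW : Dup W) (l : H →+ C) {F : C → ℝ≥0∞} (hF : Dup F) :
    Dup (fun p : H × (C × B) => F (l p.1 - p.2.1) * W (p.1, p.2.2)) := by
  have h1 := hF.comp ((l.comp (AddMonoidHom.fst H (C × B)))
    - ((AddMonoidHom.fst C B).comp (AddMonoidHom.snd H (C × B))))
  have h2 := hW.comp ((AddMonoidHom.fst H (C × B)).prod
    ((AddMonoidHom.snd C B).comp (AddMonoidHom.snd H (C × B))))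
  have h3 := h1.mul h2
  simpa using h3

/-- **MONO**: replacing the factor `F (l h)` by `∑' c, φ c * F (l h - c)`, `φ` even, raises the
ratio `Z b / Z 0` -/
theorem Dup.conv_mono (h2 : ∀ x : H, x + x = 0 → x = 0) {W : H × B → ℝ≥0∞} (hW : Dup W)
    (hWe : ∀ h b, W (-h, -b) = W (h, b)) (l : H →+ C) {F : C → ℝ≥0∞} (hF : Dup F)
    (hFe : ∀ c, F (-c) = F c) (φ : C → ℝ≥0∞) (hφ : ∀ c, φ (-c) = φ c) (b : B) :
    (∑' h, (∑' c, φ c * F (l h - c)) * W (h, 0)) * (∑' h, F (l h) * W (h, b))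
      ≤ (∑' h, F (l h) * W (h, 0)) * ∑' h, (∑' c, φ c * F (l h - c)) * W (h, b) := by
  have hD := (hW.shift l hF).marg h2
  have hev : ∀ n : C, (fun q : C × B => ∑' h : H, F (l h - q.1) * W (h, q.2)) (n, -b)
      = (fun q : C × B => ∑' h : H, F (l h - q.1) * W (h, q.2)) (-n, b) := by
    intro n
    simp only
    rw [← (Equiv.neg H).tsum_eq]
    refine tsum_congr fun h => ?_
    simp only [Equiv.neg_apply, map_neg]
    rw [hWe, ← hFe]
    congr 2
    abel
  have key := Dup.mix_le hD b hev φ hφ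
  simp only [sub_zero] at key
  have e : ∀ b' : B, ∑' c, φ c * ∑' h : H, F (l h - c) * W (h, b')
      = ∑' h, (∑' c, φ c * F (l h - c)) * W (h, b') := by
    intro b'
    have : ∀ c, φ c * ∑' h : H, F (l h - c) * W (h, b')
        = ∑' h : H, φ c * F (l h - c) * W (h, b') := by
      intro c
      rw [← ENNReal.tsum_mul_left]
      refine tsum_congr fun h => ?_
      ring
    rw [tsum_congr this, ENNReal.tsum_comm]
    refine tsum_congr fun h => ?_
    rw [ENNReal.tsum_mul_right]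
  rw [e, e] at key
  exact key

/-- **PINNING**: removing an arbitrary even factor `φ (l h)` and pinning `l h = 0` instead lowers
the ratio `Z b / Z 0` -/
theorem Dup.pin_mono [DecidableEq C] (h2 : ∀ x : H, x + x = 0 → x = 0)
    (h2C : ∀ x : C, x + x = 0 → x = 0) {W : H × B → ℝ≥0∞} (hW : Dup W)
    (hWe : ∀ h b, W (-h, -b) = W (h, b)) (l : H →+ C) (φ : C → ℝ≥0∞)
    (hφ : ∀ c, φ (-c) = φ c) (b : B) :
    (∑' h, φ (l h) * W (h, 0)) * (∑' h, (if l h = 0 then (1 : ℝ≥0∞) else 0) * W (h, b))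
      ≤ (∑' h, (if l h = 0 then (1 : ℝ≥0∞) else 0) * W (h, 0)) * ∑' h, φ (l h) * W (h, b) := by
  have h := Dup.conv_mono h2 hW hWe l (Dup.pin h2C) (by intro c; simp) φ hφ b
  have e : ∀ h : H, ∑' c, φ c * (if l h - c = 0 then (1 : ℝ≥0∞) else 0) = φ (l h) := by
    intro h
    rw [tsum_eq_single (l h)]
    · simp
    · intro c hc
      have : ¬ (l h - c = 0) := fun e => hc (sub_eq_zero.1 e).symm
      simp [this]
  simpa only [e] using h

end marg

end Vale.Agent.P159.TM.H821
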