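import Vale.Agent.P159.TM.H131.Rb
import Vale.Agent.P159.TM.H708.Pd
import Vale.Agent.P159.TM.H551.Mom
import Vale.Agent.P159.T1.H934.Markov

/-!
(LPV): the last step of E2.  `Lp` (the logarithm of the exponential moment of the model with zero
boundary values on a cluster and its outer boundary) is at least half the variance of the pinned
model.
-/

open scoped ENNReal

set_option linter.unusedSectionVars false

namespace Vale.Agent.P159.TM.H821

open Vale.Agent.P159.H353 (wI wI_nonneg wI_zero_pos)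
open Vale.Agent.P159.T1.H934 (grd W W_nonneg)
open Vale.Agent.P159.TM.H60
open Vale.Agent.P159.TM.H131 (gl inn out FO GA TI Zp Lp Zp_eq Zp_ne_top Zp_ne_zero dup_Ib Ib_eq
  inn_mem out_not_mem)
open Vale.Agent.P159.TM.H708 (SS bw lf ga iX Gr)

variable {V E : Type} [Fintype V] [DecidableEq V] [Fintype E] [DecidableEq E]
variable (s t : E → V) (A : Finset V) {b : E → ℝ}

/-- the zero set -/
def XX : Set V := (↑(A ∪ (bdE s t A).image (out s t A)) : Set V)

/-- the constant -/
noncomputable def KK (b : E → ℝ) : ℝ≥0∞ := ∏ e ∈ (outE s t A)ᶜ, ENNReal.ofReal (wI (b e) 0)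

lemma KK_ne_top : KK s t A b ≠ ⊤ := ENNReal.prod_ne_top fun _ _ => ENNReal.ofReal_ne_top

lemma KK_ne_zero (hb : ∀ e, 0 ≤ b e) : KK s t A b ≠ 0 := by
  unfold KK
  rw [Finset.prod_ne_zero_iff]
  intro e _
  exact (ENNReal.ofReal_pos.2 (wI_zero_pos (hb e))).ne'

lemma gl_inj : Function.Injective (fun y : {v // v ∉ A} → ℤ => gl A (fun _ => (0 : ℤ)) y) := by
  intro y z h
  funext v
  have h1 := congrFun h v.1
  simpa [gl, v.2] using h1

lemma gl_zero_of_mem (y : {v // v ∉ A} → ℤ) {v : V} (hv : v ∈ A) :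
    gl A (fun _ => (0 : ℤ)) y v = 0 := by
  simp [gl, hv]

lemma iX_gl (y : {v // v ∉ A} → ℤ) : iX (XX s t A) (gl A (fun _ => (0 : ℤ)) y) =
    if ∀ e ∈ bdE s t A, gl A (fun _ => (0 : ℤ)) y (out s t A e) = 0 then 1 else 0 := by
  unfold iX XX
  congr 1
  refine propext ⟨fun h e he => h _ ?_, fun h v hv => ?_⟩
  · simp only [Finset.coe_union, Finset.coe_image, Set.mem_union, Set.mem_image]
    exact Or.inr ⟨e, he, rfl⟩
  · simp only [Finset.coe_union, Finset.coe_image, Set.mem_union, Set.mem_image] at hv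
    rcases hv with hv | ⟨e, he, rfl⟩
    · exact gl_zero_of_mem A y hv
    · exact h e he

/-- pointwise identity -/
lemma point_eq (hb : ∀ e, 0 ≤ b e) (m τ : V → ℝ) (y : {v // v ∉ A} → ℤ) :
    ENNReal.ofReal (bw (grd s t) b m (XX s t A) (gl A (fun _ => 0) y) *
      Real.exp (lf τ (gl A (fun _ => 0) y))) =
    KK s t A b * ((if ∀ e ∈ bdE s t A, gl A (fun _ => (0 : ℤ)) y (out s t A e) = 0 then
      (1 : ℝ≥0∞) else 0) * FO s t A b y * GA A m (fun _ => 0) y * TI A τ y) := by
  unfold bw
  rw [iX_gl]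
  split_ifs with hc
  · have e1 : ENNReal.ofReal (W (grd s t) b (gl A (fun _ => 0) y)) =
        KK s t A b * FO s t A b y := by
      unfold W KK FO
      rw [ENNReal.ofReal_prod_of_nonneg fun e _ => wI_nonneg (hb e) _,
        ← Finset.prod_compl_mul_prod (outE s t A)]
      congr 1
      · refine Finset.prod_congr rfl fun e he => ?_
        have h0 : grd s t (gl A (fun _ => 0) y) e = 0 := by
          show gl A (fun _ => (0 : ℤ)) y (t e) - gl A (fun _ => (0 : ℤ)) y (s e) = 0
          by_cases h1 : e ∈ bdE s t A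
          · have h2 := hc e h1
            have h3 := gl_zero_of_mem A y (inn_mem s t A h1)
            unfold inn at h3
            unfold out at h2
            split_ifs at h2 h3 with h4
            · rw [h2, h3, sub_zero]
            · rw [h2, h3, sub_zero]
          · rw [mem_bdE, not_not] at h1
            rw [Finset.mem_compl, mem_outE, not_and_or, not_not, not_not] at he
            have h2 : s e ∈ A ∧ t e ∈ A := by
              rcases he with he | he
              · exact ⟨he, h1.1 he⟩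
              · exact ⟨h1.2 he, he⟩
            rw [gl_zero_of_mem A y h2.1, gl_zero_of_mem A y h2.2, sub_zero]
        rw [h0]
      · refine Finset.prod_congr rfl fun e _ => ?_
        rw [Ib_eq (hb e)]
        rfl
    have e2 : ENNReal.ofReal (ga m (gl A (fun _ => 0) y)) = GA A m (fun _ => 0) y := by
      unfold ga GA
      rw [← Finset.sum_neg_distrib, Real.exp_sum,
        ENNReal.ofReal_prod_of_nonneg fun _ _ => (Real.exp_pos _).le,
        ← Finset.prod_compl_mul_prod A]
      have e3 : ∏ v ∈ A, ENNReal.ofReal (Real.exp (-(m v / 2 *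
          ((gl A (fun _ => (0 : ℤ)) y v : ℤ) : ℝ) ^ 2))) = 1 := by
        refine Finset.prod_eq_one fun v hv => ?_
        rw [gl_zero_of_mem A y hv]
        simp
      rw [e3, mul_one, Finset.prod_subtype Aᶜ (p := fun v => v ∉ A) (fun v => Finset.mem_compl)]
      refine Finset.prod_congr rfl fun v _ => ?_
      congr 2
      simp [gl, v.2]
    have e4 : ENNReal.ofReal (Real.exp (lf τ (gl A (fun _ => 0) y))) = TI A τ y := by
      unfold lf TI
      congr 2
      rw [← Finset.sum_compl_add_sum A]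
      have e3 : ∑ v ∈ A, τ v * ((gl A (fun _ => (0 : ℤ)) y v : ℤ) : ℝ) = 0 := by
        refine Finset.sum_eq_zero fun v hv => ?_
        rw [gl_zero_of_mem A y hv]
        simp
      rw [e3, add_zero, Finset.sum_subtype Aᶜ (p := fun v => v ∉ A) (fun v => Finset.mem_compl)]
      refine Finset.sum_congr rfl fun v _ => ?_
      simp [gl, v.2]
    rw [mul_one, ENNReal.ofReal_mul (mul_nonneg (W_nonneg hb _) (H708.ga_pos _ _).le),
      ENNReal.ofReal_mul (W_nonneg hb _), e1, e2, e4]
    ring
  · simp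

lemma sum_eq (hb : ∀ e, 0 ≤ b e) (m τ : V → ℝ) :
    ∑' h : V → ℤ, ENNReal.ofReal (bw (grd s t) b m (XX s t A) h * Real.exp (lf τ h)) =
      KK s t A b * Zp s t A b m τ := by
  unfold Zp
  rw [← ENNReal.tsum_mul_left]
  rw [← (gl_inj A).tsum_eq]
  · refine tsum_congr fun y => ?_
    exact point_eq s t A hb m τ y
  · intro h hh
    have h1 : iX (XX s t A) h ≠ 0 := by
      intro h0
      apply hh
      show ENNReal.ofReal (bw (grd s t) b m (XX s t A) h * Real.exp (lf τ h)) = 0
      unfold bw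
      rw [h0]
      simp
    have h2 : ∀ x ∈ XX s t A, h x = 0 := by
      by_contra h3
      exact h1 (by unfold iX; rw [if_neg h3])
    refine ⟨fun v => h v.1, ?_⟩
    funext v
    by_cases hv : v ∈ A
    · simp only
      rw [gl_zero_of_mem A _ hv, h2 v (by
        unfold XX
        simp [hv])]
    · simp [gl, hv]

lemma summ (hb : ∀ e, 0 ≤ b e) (m τ : V → ℝ) (hm : ∀ v, 0 < m v) (X : Set V) :
    Summable fun h : V → ℤ => bw (grd s t) b m X h * Real.exp (lf τ h) :=
  (H708.bw_summable (D := grd s t) (X := X) hb hm (H708.gr_exp τ)).of_abs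

/-- the exponential moments of the pinned model -/
lemma mg_eq (hb : ∀ e, 0 ≤ b e) (m τ : V → ℝ) (hm : ∀ v, 0 < m v) (r : ℝ) :
    ENNReal.ofReal (H551.mg (bw (grd s t) b m (XX s t A)) (lf τ) r) =
      KK s t A b * Zp s t A b m (fun v => r * τ v) := by
  rw [← sum_eq s t A hb m, ← ENNReal.ofReal_tsum_of_nonneg
    (fun h => mul_nonneg (H708.bw_nonneg hb h) (Real.exp_pos _).le) (summ s t hb m _ hm _)]
  unfold H551.mg
  congr 1
  exact tsum_congr fun h => by rw [H708.lf_rsmul]

lemma Zp_neg (m τ : V → ℝ) : Zp s t A b m (fun v => -τ v) = Zp s t A b m τ := by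
  rw [Zp_eq, Zp_eq]
  have h := Zt_neg (s := H131.so s t A) (t := H131.tO s t A)
    (I := fun e n => H131.Ib (b e.1) n) (pt := H131.po s t A) (J := pin0)
    (M := H131.MM fun v : {v // v ∉ A} => m v) (fun e n => H131.Ib_neg _ _)
    (fun p n => by unfold pin0; simp only [neg_eq_zero]) (fun u => H131.MM_neg _ u) 0 0 (fun v => τ v.1)
  rw [neg_zero, neg_zero] at h
  exact h

lemma dup_pin0 {P : Type} (p : P) : Dup (pin0 p) := by
  have h := Dup.pin (A := ℤ) (fun x hx => by omega)
  exact h

lemma Zp_four (hb : ∀ e, 0 ≤ b e) (m τ : V → ℝ) :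
    Zp s t A b m τ ^ 4 ≤ Zp s t A b m (fun _ => 0) ^ 3 * Zp s t A b m (fun v => 2 * τ v) := by
  rw [Zp_eq, Zp_eq, Zp_eq]
  have h := four_exp (s := H131.so s t A) (t := H131.tO s t A)
    (I := fun e n => H131.Ib (b e.1) n) (pt := H131.po s t A) (J := pin0)
    (M := H131.MM fun v : {v // v ∉ A} => m v) (fun e => dup_Ib (hb _)) (fun p => dup_pin0 p)
    (dup_mass _) (fun v => τ v.1)
  have e : ((fun v : {v // v ∉ A} => τ v.1) + fun v : {v // v ∉ A} => τ v.1) =
      fun v => 2 * τ v.1 := by
    funext v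
    rw [Pi.add_apply]
    ring
  rw [e] at h
  exact h

/-- **(LPV)**: the logarithm of the exponential moment of the model with zero boundary values on
`A` and its outer boundary is at least half of the variance. -/
theorem lpv (hb : ∀ e, 0 ≤ b e) {m : V → ℝ} (hm : ∀ v, 0 < m v) (τ : V → ℝ) :
    (SS (grd s t) b m (↑(A ∪ (bdE s t A).image (out s t A)) : Set V) (fun h => lf τ h ^ 2) /
      SS (grd s t) b m (↑(A ∪ (bdE s t A).image (out s t A)) : Set V) (fun _ => 1)) / 2 ≤
      Lp s t A b m τ := by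
  show (SS (grd s t) b m (XX s t A) (fun h => lf τ h ^ 2) /
    SS (grd s t) b m (XX s t A) (fun _ => 1)) / 2 ≤ Lp s t A b m τ
  set w : (V → ℤ) → ℝ := bw (grd s t) b m (XX s t A) with hw'
  set l : (V → ℤ) → ℝ := lf τ with hl
  have hw : ∀ h, 0 ≤ w h := fun h => H708.bw_nonneg hb h
  have hmg : ∀ r : ℝ, 0 ≤ H551.mg w l r := H551.mg_nonneg hw
  have K0 := KK_ne_zero s t A hb
  have K1 := KK_ne_top s t A (b := b)
  have key : ∀ r : ℝ, ENNReal.ofReal (H551.mg w l r) =
      KK s t A b * Zp s t A b m (fun v => r * τ v) := mg_eq s t A hb m τ hm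
  have keyR : ∀ r : ℝ, H551.mg w l r =
      (KK s t A b).toReal * (Zp s t A b m (fun v => r * τ v)).toReal := by
    intro r
    rw [← ENNReal.toReal_mul, ← key, ENNReal.toReal_ofReal (hmg r)]
  have hK : 0 < (KK s t A b).toReal := ENNReal.toReal_pos K0 K1
  have hs : ∀ r : ℝ, Summable fun h => w h * Real.exp (r * l h) := by
    intro r
    have := summ s t hb m (fun v => r * τ v) hm (XX s t A)
    refine this.congr fun h => ?_
    rw [H708.lf_rsmul]
  have hev : ∀ r, H551.mg w l (-r) = H551.mg w l r := by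
    intro r
    rw [keyR, keyR, ← Zp_neg s t A m (fun v => r * τ v)]
    congr 3
    funext v
    ring
  have hZp : ∀ r : ℝ, 0 < (Zp s t A b m (fun v => r * τ v)).toReal := fun r =>
    ENNReal.toReal_pos (Zp_ne_zero s t A hb m _) (Zp_ne_top s t A hb m _ hm)
  have hZ : 0 < H551.mg w l 0 := by
    rw [keyR]
    exact mul_pos hK (hZp 0)
  have four : ∀ r, H551.mg w l r ^ 4 ≤ H551.mg w l 0 ^ 3 * H551.mg w l (2 * r) := by
    intro r
    have h1 := Zp_four s t A hb m (fun v => r * τ v)
    have h2 := ENNReal.toReal_mono (ENNReal.mul_ne_top (ENNReal.pow_ne_top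
      (Zp_ne_top s t A hb m _ hm)) (Zp_ne_top s t A hb m _ hm)) h1
    rw [ENNReal.toReal_mul, ENNReal.toReal_pow, ENNReal.toReal_pow] at h2
    rw [keyR, keyR, keyR]
    have e0 : (fun v => (0 : ℝ) * τ v) = fun _ => (0 : ℝ) := by funext v; ring
    have e2 : (fun v => 2 * r * τ v) = fun v => 2 * (r * τ v) := by funext v; ring
    rw [e0, e2]
    calc _ = (KK s t A b).toReal ^ 4 * (Zp s t A b m (fun v => r * τ v)).toReal ^ 4 := by ring
      _ ≤ (KK s t A b).toReal ^ 4 * ((Zp s t A b m (fun _ => 0)).toReal ^ 3 *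
          (Zp s t A b m (fun v => 2 * (r * τ v))).toReal) :=
          mul_le_mul_of_nonneg_left h2 (by positivity)
      _ = _ := by ring
  have h := H551.half_le_log hw hs hev hZ four 1
  have e1 : SS (grd s t) b m (XX s t A) (fun h => lf τ h ^ 2) = ∑' h, w h * l h ^ 2 := rfl
  have e3 : SS (grd s t) b m (XX s t A) (fun _ => 1) = H551.mg w l 0 := by
    rw [H551.mg_zero]
    unfold SS
    exact tsum_congr fun h => by rw [mul_one]
  rw [e1, e3]
  have e4 : Real.log (H551.mg w l 1 / H551.mg w l 0) = Lp s t A b m τ := by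
    unfold Lp
    rw [keyR, keyR, mul_div_mul_left _ _ hK.ne', Real.log_div (hZp 1).ne' (hZp 0).ne']
    congr 4
    · funext v
      ring
    · funext v
      ring
  rw [← e4]
  linarith

end Vale.Agent.P159.TM.H821
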